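import Vale.Agent.P227.M.Defs

/-! # P227/M/SC3 (helper305): the shear change of variables on `E n × ℝ`. -/

open MeasureTheory Filter Topology Set
open scoped RealInnerProductSpace

namespace Vale.Agent.P227.M.Mg305

variable {n : ℕ}

/-- dual vector of `v` -/
noncomputable def dv (v : E n) : E n := (‖v‖ ^ 2)⁻¹ • v

/-- projection orthogonal to `v` -/
noncomputable def Q (v : E n) : E n →L[ℝ] E n :=
  ContinuousLinearMap.id ℝ (E n) - (innerSL ℝ v).smulRight (dv v)

theorem Q_apply (v x : E n) : Q v x = x - ⟪x, v⟫ • dv v := by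
  simp [Q, real_inner_comm]

theorem sq_pos {v : E n} (hv : v ≠ 0) : 0 < ‖v‖ ^ 2 := by
  have := norm_pos_iff.2 hv
  positivity

theorem inner_dv {v : E n} (hv : v ≠ 0) : ⟪dv v, v⟫ = 1 := by
  rw [dv, real_inner_smul_left, real_inner_self_eq_norm_sq, inv_mul_cancel₀ (sq_pos hv).ne']

theorem norm_dv_sq {v : E n} (hv : v ≠ 0) : ‖dv v‖ ^ 2 = (‖v‖ ^ 2)⁻¹ := by
  have h := (sq_pos hv).ne'
  rw [dv, norm_smul, mul_pow, Real.norm_eq_abs, sq_abs]
  field_simp

theorem inner_Q {v : E n} (hv : v ≠ 0) (x : E n) : ⟪Q v x, v⟫ = 0 := by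
  rw [Q_apply, inner_sub_left, real_inner_smul_left, inner_dv hv]
  ring

theorem Q_dv {v : E n} (hv : v ≠ 0) : Q v (dv v) = 0 := by
  rw [Q_apply, inner_dv hv, one_smul, sub_self]

theorem Q_Q {v : E n} (hv : v ≠ 0) (x : E n) : Q v (Q v x) = Q v x := by
  rw [Q_apply v (Q v x), inner_Q hv, zero_smul, sub_zero]

theorem inner_dv_Q {v : E n} (hv : v ≠ 0) (x : E n) : ⟪dv v, Q v x⟫ = 0 := by
  rw [dv, real_inner_smul_left, real_inner_comm, inner_Q hv, mul_zero]

/-- Pythagoras -/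
theorem norm_split {v : E n} (hv : v ≠ 0) (t s : ℝ) (x : E n) :
    ‖t • dv v + s • Q v x‖ ^ 2 = t ^ 2 / ‖v‖ ^ 2 + s ^ 2 * ‖Q v x‖ ^ 2 := by
  rw [norm_add_sq_real, norm_smul, norm_smul, mul_pow, mul_pow, norm_dv_sq hv,
    real_inner_smul_left, real_inner_smul_right, inner_dv_Q hv]
  simp only [Real.norm_eq_abs, sq_abs]
  ring

theorem norm_Q_le {v : E n} (hv : v ≠ 0) (x : E n) : ‖Q v x‖ ≤ ‖x‖ := by
  have h := norm_split hv ⟪x, v⟫ 1 x
  have h1 : ⟪x, v⟫ • dv v + (1 : ℝ) • Q v x = x := by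
    rw [Q_apply, one_smul]; abel
  rw [h1] at h
  have h2 : 0 ≤ ⟪x, v⟫ ^ 2 / ‖v‖ ^ 2 := by positivity
  have h3 : ‖Q v x‖ ^ 2 ≤ ‖x‖ ^ 2 := by nlinarith
  exact abs_le_of_sq_le_sq' h3 (norm_nonneg _) |>.2

/-- the shear -/
noncomputable def T (v : E n) (p : E n × ℝ) : E n × ℝ := (p.1 - p.2 • dv v, ⟪p.1, v⟫)

theorem cont_T (v : E n) : Continuous (T v) := by
  unfold T
  fun_prop

theorem T_inj {v : E n} (hv : v ≠ 0) : Function.Injective (T v) := by
  intro p q h
  simp only [T, Prod.mk.injEq] at h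
  obtain ⟨h1, h2⟩ := h
  have h3 : ⟪p.1 - p.2 • dv v, v⟫ = ⟪q.1 - q.2 • dv v, v⟫ := by rw [h1]
  rw [inner_sub_left, inner_sub_left, real_inner_smul_left, real_inner_smul_left, inner_dv hv, h2]
    at h3
  have h4 : p.2 = q.2 := by linarith
  rw [h4] at h1
  exact Prod.ext (sub_left_injective h1) h4

theorem mp_A (w : E n) : MeasurePreserving (fun p : E n × ℝ => (p.1 - p.2 • w, p.2))
    (volume : Measure (E n × ℝ)) volume := by
  have h1 : MeasurePreserving (fun p : ℝ × E n => (p.1, p.2 - p.1 • w))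
      ((volume : Measure ℝ).prod (volume : Measure (E n))) (volume.prod volume) := by
    refine (MeasurePreserving.id (volume : Measure ℝ)).skew_product
      (g := fun s x => x - s • w) ?_ (Eventually.of_forall fun s => ?_)
    · have : Continuous (Function.uncurry fun (s : ℝ) (x : E n) => x - s • w) := by
        unfold Function.uncurry
        fun_prop
      exact this.measurable
    · exact (measurePreserving_sub_right volume (s • w)).map_eq
  have h2 : MeasurePreserving (Prod.swap : E n × ℝ → ℝ × E n)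
      ((volume : Measure (E n)).prod (volume : Measure ℝ)) (volume.prod volume) :=
    Measure.measurePreserving_swap
  have h3 : MeasurePreserving (Prod.swap : ℝ × E n → E n × ℝ)
      ((volume : Measure ℝ).prod (volume : Measure (E n))) (volume.prod volume) :=
    Measure.measurePreserving_swap
  exact h3.comp (h1.comp h2)

theorem mp_B (v : E n) : MeasurePreserving (fun p : E n × ℝ => (p.1, p.2 + ⟪p.1, v⟫))
    (volume : Measure (E n × ℝ)) volume := by
  refine (MeasurePreserving.id (volume : Measure (E n))).skew_product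
    (g := fun z s => s + ⟪z, v⟫) ?_ (Eventually.of_forall fun z => ?_)
  · have : Continuous (Function.uncurry fun (z : E n) (s : ℝ) => s + ⟪z, v⟫) := by
      unfold Function.uncurry
      fun_prop
    exact this.measurable
  · exact (measurePreserving_add_right volume (⟪z, v⟫ : ℝ)).map_eq

theorem mp_T {v : E n} (hv : v ≠ 0) : MeasurePreserving (T v) (volume : Measure (E n × ℝ)) volume := by
  have h := (mp_B v).comp (mp_A (dv v))
  have h1 : ((fun p : E n × ℝ => (p.1, p.2 + ⟪p.1, v⟫)) ∘ fun p : E n × ℝ =>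
      (p.1 - p.2 • dv v, p.2)) = T v := by
    funext p
    simp only [Function.comp, T, Prod.mk.injEq, true_and]
    rw [inner_sub_left, real_inner_smul_left, inner_dv hv]
    ring
  rwa [h1] at h

theorem emb_T {v : E n} (hv : v ≠ 0) : MeasurableEmbedding (T v) :=
  (cont_T v).measurable.measurableEmbedding (T_inj hv)

/-- `S = ⟨·, v⟩ v* + σ Q` -/
noncomputable def S (v : E n) (σ : ℝ) : E n →ₗ[ℝ] E n :=
  ((innerSL ℝ v).smulRight (dv v) + σ • Q v : E n →L[ℝ] E n).toLinearMap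

theorem S_apply (v : E n) (σ : ℝ) (x : E n) : S v σ x = ⟪x, v⟫ • dv v + σ • Q v x := by
  simp [S, real_inner_comm]

theorem S_inj {v : E n} (hv : v ≠ 0) {σ : ℝ} (hσ : σ ≠ 0) : Function.Injective (S v σ) := by
  rw [injective_iff_map_eq_zero]
  intro x hx
  rw [S_apply] at hx
  have h1 := norm_split hv ⟪x, v⟫ σ x
  rw [hx, norm_zero] at h1
  have h2 : 0 ≤ ⟪x, v⟫ ^ 2 / ‖v‖ ^ 2 := by positivity
  have h3 : 0 ≤ σ ^ 2 * ‖Q v x‖ ^ 2 := by positivity
  have h4 : ⟪x, v⟫ ^ 2 / ‖v‖ ^ 2 = 0 := by nlinarith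
  have h5 : σ ^ 2 * ‖Q v x‖ ^ 2 = 0 := by nlinarith
  have h6 : ⟪x, v⟫ = 0 := by
    rcases div_eq_zero_iff.1 h4 with h | h
    · exact pow_eq_zero_iff (two_ne_zero) |>.1 h
    · exact absurd h (sq_pos hv).ne'
  have h7 : Q v x = 0 := by
    rcases mul_eq_zero.1 h5 with h | h
    · exact absurd (pow_eq_zero_iff (two_ne_zero) |>.1 h) hσ
    · exact norm_eq_zero.1 (pow_eq_zero_iff (two_ne_zero) |>.1 h)
  rw [Q_apply, h6, zero_smul, sub_zero] at h7
  exact h7

theorem S_det {v : E n} (hv : v ≠ 0) {σ : ℝ} (hσ : σ ≠ 0) : LinearMap.det (S v σ) ≠ 0 := by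
  have h := LinearEquiv.isUnit_det' (LinearEquiv.ofInjectiveEndo (S v σ) (S_inj hv hσ))
  exact h.ne_zero

/-- linear change of variables -/
theorem int_S {v : E n} (hv : v ≠ 0) {σ : ℝ} (hσ : σ ≠ 0) {F : E n → ℝ} (hF : Continuous F) :
    ∫ x, F (S v σ x) = |(LinearMap.det (S v σ))⁻¹| * ∫ x, F x := by
  have hm := Measure.map_linearMap_addHaar_eq_smul_addHaar (volume : Measure (E n)) (S_det hv hσ)
  have hc : Continuous (S v σ) := LinearMap.continuous_of_finiteDimensional _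
  rw [← integral_map hc.aemeasurable hF.aestronglyMeasurable, hm, integral_smul_measure,
    ENNReal.toReal_ofReal (abs_nonneg _), smul_eq_mul]

end Vale.Agent.P227.M.Mg305
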