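import Vale.Agent.P227.M.SC3.Low

/-! # P227/M/SC3 (helper305): removing `δ ‖Q x‖²`, and the tilt by a linear function. -/

open MeasureTheory Filter Topology Set
open scoped RealInnerProductSpace

namespace Vale.Agent.P227.M.Mg305

variable {n : ℕ}

theorem gr_of_reg {W : E n → ℝ} {c C : ℝ} (h : Reg W c C) : ∃ A, LL.Gr W (c / 4) A := by
  obtain ⟨A, hA⟩ := h.quad_lower
  exact ⟨A, h.cont, by have := h.c_pos; positivity, hA⟩

theorem gr_q {W : E n → ℝ} {a A : ℝ} (hW : LL.Gr W a A) (v : E n) {δ : ℝ} (hδ : 0 ≤ δ) :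
    LL.Gr (fun x => W x + δ * ‖Q v x‖ ^ 2) a A where
  cont := by
    have := hW.cont
    fun_prop
  pos := hW.pos
  low x := by
    have := hW.low x
    have h2 : 0 ≤ δ * ‖Q v x‖ ^ 2 := by positivity
    linarith

theorem tendsto_I {W : E n → ℝ} {a A : ℝ} (hW : LL.Gr W a A) (v : E n) {g : E n → ℝ}
    (hg : LL.Pg g) (y : E n) :
    Tendsto (fun δ : ℝ => LL.I (fun x => W x + δ * ‖Q v x‖ ^ 2) g y) (𝓝[>] 0)
      (𝓝 (LL.I W g y)) := by
  unfold LL.I
  have hi := (LL.integrable hW hg y).norm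
  refine tendsto_integral_filter_of_dominated_convergence
    (fun x => ‖Real.exp (⟪x, y⟫ - W x) • g x‖) ?_ ?_ hi ?_
  · refine Eventually.of_forall fun δ => ?_
    have h1 := hW.cont
    have h2 := hg.1
    refine Continuous.aestronglyMeasurable ?_
    fun_prop
  · filter_upwards [self_mem_nhdsWithin] with δ hδ
    refine Eventually.of_forall fun x => ?_
    rw [norm_smul, norm_smul]
    refine mul_le_mul_of_nonneg_right ?_ (norm_nonneg _)
    rw [Real.norm_eq_abs, Real.norm_eq_abs, abs_of_pos (Real.exp_pos _),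
      abs_of_pos (Real.exp_pos _)]
    refine Real.exp_le_exp.2 ?_
    have : 0 ≤ δ * ‖Q v x‖ ^ 2 := mul_nonneg (le_of_lt hδ) (sq_nonneg _)
    linarith
  · refine Eventually.of_forall fun x => ?_
    have hc : Continuous fun δ : ℝ => Real.exp (⟪x, y⟫ - (W x + δ * ‖Q v x‖ ^ 2)) • g x := by
      fun_prop
    have h := (hc.tendsto 0).mono_left (nhdsWithin_le_nhds (s := Set.Ioi (0 : ℝ)))
    simpa using h

theorem tendsto_Z {W : E n → ℝ} {a A : ℝ} (hW : LL.Gr W a A) (v y : E n) :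
    Tendsto (fun δ : ℝ => LL.Z (fun x => W x + δ * ‖Q v x‖ ^ 2) y) (𝓝[>] 0) (𝓝 (LL.Z W y)) := by
  have h := tendsto_I hW v (LL.Pg.const (E := E n) (1 : ℝ)) y
  simpa only [LL.Z_eq_I] using h

theorem tendsto_av {W : E n → ℝ} {a A : ℝ} (hW : LL.Gr W a A) (v : E n) {g : E n → ℝ}
    (hg : LL.Pg g) (y : E n) :
    Tendsto (fun δ : ℝ => LL.av (fun x => W x + δ * ‖Q v x‖ ^ 2) y g) (𝓝[>] 0)
      (𝓝 (LL.av W y g)) := by
  unfold LL.av
  exact ((tendsto_Z hW v y).inv₀ (LL.Z_pos hW y).ne').smul (tendsto_I hW v hg y)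

theorem tendsto_c2 {W : E n → ℝ} {a A : ℝ} (hW : LL.Gr W a A) (v y : E n) :
    Tendsto (fun δ : ℝ => LL.c2 (fun x => W x + δ * ‖Q v x‖ ^ 2) y v) (𝓝[>] 0)
      (𝓝 (LL.c2 W y v)) := by
  have hv := LL.Pg.inner (E := E n) v
  have h := (tendsto_av hW v (hv.pow 2) y).sub ((tendsto_av hW v hv y).pow 2)
  rw [← LL.c2_eq hW] at h
  refine h.congr' ?_
  filter_upwards [self_mem_nhdsWithin] with δ hδ
  exact (LL.c2_eq (gr_q hW v (le_of_lt hδ)) y v).symm

theorem tendsto_c3 {W : E n → ℝ} {a A : ℝ} (hW : LL.Gr W a A) (v y : E n) :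
    Tendsto (fun δ : ℝ => LL.c3 (fun x => W x + δ * ‖Q v x‖ ^ 2) y v) (𝓝[>] 0)
      (𝓝 (LL.c3 W y v)) := by
  have hv := LL.Pg.inner (E := E n) v
  have h := ((tendsto_av hW v (hv.pow 3) y).sub
    (((tendsto_av hW v hv y).const_mul 3).mul (tendsto_av hW v (hv.pow 2) y))).add
    (((tendsto_av hW v hv y).pow 3).const_mul 2)
  rw [← LL.c3_eq hW] at h
  refine h.congr' ?_
  filter_upwards [self_mem_nhdsWithin] with δ hδ
  exact (LL.c3_eq (gr_q hW v (le_of_lt hδ)) y v).symm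

/-- the third moment bound passes to the limit `δ → 0` -/
theorem c3_le_of_q {W : E n → ℝ} {a A : ℝ} (hW : LL.Gr W a A) (v y : E n) {κ : ℝ}
    (h : ∀ δ : ℝ, 0 < δ → |LL.c3 (fun x => W x + δ * ‖Q v x‖ ^ 2) y v|
      ≤ 2 * κ * √(LL.c2 (fun x => W x + δ * ‖Q v x‖ ^ 2) y v) ^ 3) :
    |LL.c3 W y v| ≤ 2 * κ * √(LL.c2 W y v) ^ 3 := by
  have h1 := (tendsto_c3 hW v y).abs
  have h2 : Tendsto (fun δ : ℝ => 2 * κ * √(LL.c2 (fun x => W x + δ * ‖Q v x‖ ^ 2) y v) ^ 3)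
      (𝓝[>] 0) (𝓝 (2 * κ * √(LL.c2 W y v) ^ 3)) := by
    refine (((Real.continuous_sqrt.tendsto _).comp (tendsto_c2 hW v y)).pow 3).const_mul _
  refine le_of_tendsto_of_tendsto h1 h2 ?_
  filter_upwards [self_mem_nhdsWithin] with δ hδ
  exact h δ hδ

/-! ### the tilt -/

theorem iter_inner (y : E n) {k : ℕ} (hk : 2 ≤ k) (x : E n) :
    iteratedFDeriv ℝ k (fun z : E n => ⟪z, y⟫) x = 0 := by
  obtain ⟨m, rfl⟩ : ∃ m, k = m + 2 := ⟨k - 2, by omega⟩
  rw [← norm_eq_zero]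
  have h1 : fderiv ℝ (fun z : E n => ⟪z, y⟫) = fun _ => innerSL ℝ y := by
    funext z
    have : HasFDerivAt (fun z : E n => ⟪z, y⟫) (innerSL ℝ y) z := by
      have := (innerSL ℝ y).hasFDerivAt (x := z)
      refine this.congr_of_eventuallyEq (Eventually.of_forall fun z => ?_)
      simp [real_inner_comm]
    exact this.fderiv
  rw [show m + 2 = (m + 1) + 1 from rfl, ← norm_iteratedFDeriv_fderiv, h1,
    iteratedFDeriv_const_of_ne (by omega)]
  simp

theorem smooth_inner (y : E n) : ContDiff ℝ (⊤ : ℕ∞) (fun z : E n => ⟪z, y⟫) :=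
  contDiff_id.inner ℝ contDiff_const

theorem iter_tilt {W : E n → ℝ} (hW : ContDiff ℝ (⊤ : ℕ∞) W) (y : E n) {k : ℕ} (hk : 2 ≤ k)
    (x : E n) : iteratedFDeriv ℝ k (fun z => W z - ⟪z, y⟫) x = iteratedFDeriv ℝ k W x := by
  have h1 : (fun z => W z - ⟪z, y⟫) = W + fun z : E n => ⟪z, -y⟫ := by
    funext z
    simp [sub_eq_add_neg]
  have hk' : (k : WithTop ℕ∞) ≤ (⊤ : ℕ∞) := by exact_mod_cast le_top
  rw [h1, iteratedFDeriv_add_apply (hW.of_le hk').contDiffAt ((smooth_inner (-y)).of_le hk').contDiffAt,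
    iter_inner (-y) hk, add_zero]

theorem smooth_tilt {W : E n → ℝ} (hW : ContDiff ℝ (⊤ : ℕ∞) W) (y : E n) :
    ContDiff ℝ (⊤ : ℕ∞) (fun z => W z - ⟪z, y⟫) := hW.sub (smooth_inner y)

theorem qf_tilt {W : E n → ℝ} (hW : ContDiff ℝ (⊤ : ℕ∞) W) (y x v : E n) :
    qf (hess (fun z => W z - ⟪z, y⟫) x) v = qf (hess W x) v := by
  rw [← LK.iteratedDeriv_two_line (smooth_tilt hW y), ← LK.iteratedDeriv_two_line hW,
    LK.iteratedDeriv_line_zero (smooth_tilt hW y), LK.iteratedDeriv_line_zero hW,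
    iter_tilt hW y le_rfl]

theorem reg_tilt {W : E n → ℝ} {c C : ℝ} (h : Reg W c C) (y : E n) :
    Reg (fun z => W z - ⟪z, y⟫) c C where
  c_pos := h.c_pos
  smooth := smooth_tilt h.smooth y
  lower x v := by rw [qf_tilt h.smooth]; exact h.lower x v
  upper x v := by rw [qf_tilt h.smooth]; exact h.upper x v
  bdd k hk := by
    obtain ⟨B, hB⟩ := h.bdd k hk
    exact ⟨B, fun x => by rw [iter_tilt h.smooth y hk]; exact hB x⟩

theorem sc_tilt {W : E n → ℝ} {c C κ : ℝ} (h : Reg W c C) (hs : SelfConc κ W) (y : E n) :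
    SelfConc κ (fun z => W z - ⟪z, y⟫) := by
  intro x v
  have h1 := hs x v
  rw [LK.iteratedDeriv_line_zero h.smooth, LK.iteratedDeriv_line_zero h.smooth] at h1
  rw [LK.iteratedDeriv_line_zero (smooth_tilt h.smooth y),
    LK.iteratedDeriv_line_zero (smooth_tilt h.smooth y), iter_tilt h.smooth y le_rfl,
    iter_tilt h.smooth y (by norm_num)]
  exact h1

end Vale.Agent.P227.M.Mg305
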