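import Vale.Agent.P227.M.SC3.Mom
import Vale.Agent.P227.M.SC223.Third
import Vale.Agent.P227.M.LK.LogConvE
import Vale.Agent.P227.M.LL.RegLine

/-! # P227/M/SC3 (helper305): lower bound of the second derivative and the third moment bound. -/

open MeasureTheory Filter Topology Set
open scoped RealInnerProductSpace

namespace Vale.Agent.P227.M.Mg305

variable {n : ℕ}

theorem nsq (a b : E n) {s t : ℝ} (hs : 0 ≤ s) (ht : 0 ≤ t) (hst : s + t = 1) :
    ‖s • a + t • b‖ ^ 2 ≤ s * ‖a‖ ^ 2 + t * ‖b‖ ^ 2 := by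
  rw [norm_add_sq_real, norm_smul, norm_smul, real_inner_smul_left, real_inner_smul_right, mul_pow,
    mul_pow, Real.norm_eq_abs, Real.norm_eq_abs, sq_abs, sq_abs]
  have h1 : 0 ≤ ‖a - b‖ ^ 2 := sq_nonneg _
  rw [norm_sub_sq_real] at h1
  have h2 : 0 ≤ s * t * (‖a‖ ^ 2 - 2 * ⟪a, b⟫ + ‖b‖ ^ 2) := mul_nonneg (mul_nonneg hs ht) h1
  have h3 : t = 1 - s := by linarith
  subst h3
  nlinarith

theorem w2_lower {U : E n → ℝ} {c C : ℝ} (h : Reg U c C) {v : E n} (hv : v ≠ 0) (σ t : ℝ) :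
    c / ‖v‖ ^ 2 ≤ HL.w2 U (dv v) (P v σ) (0 + t • dv v) := by
  have hq := sq_pos hv
  have hcv : ConvexOn ℝ univ (fun x => U x - c / 2 * ‖x‖ ^ 2) :=
    RegLap.rl_convex_lower h.C2 h.lower
  set G : ℝ → E n → ℝ := fun t z =>
    (U (t • dv v + P v σ z) - c / 2 * ‖t • dv v + P v σ z‖ ^ 2) +
      (c / 2 * σ ^ 2 * ‖Q v z‖ ^ 2 + 1 / 2 * ‖z‖ ^ 2) with hG
  have hG2 : ∀ t z, G t z = U (t • dv v + P v σ z) + ‖z‖ ^ 2 / 2 - c / (2 * ‖v‖ ^ 2) * t ^ 2 := by
    intro t z
    simp only [hG]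
    rw [P_apply, norm_split hv]
    field_simp
    ring
  have hc0 := h.c_pos
  have hGc : ∀ y0 y1 x0 x1, ∀ s t : ℝ, 0 < s → 0 < t → s + t = 1 →
      G (s • y0 + t • y1) (s • x0 + t • x1) ≤ s * G y0 x0 + t * G y1 x1 := by
    intro y0 y1 x0 x1 s t hs ht hst
    have h1 := hcv.2 (mem_univ (y0 • dv v + P v σ x0)) (mem_univ (y1 • dv v + P v σ x1)) hs.le ht.le
      hst
    have h2 : (s • y0 + t • y1) • dv v + P v σ (s • x0 + t • x1) =
        s • (y0 • dv v + P v σ x0) + t • (y1 • dv v + P v σ x1) := by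
      rw [map_add, map_smul, map_smul]
      simp only [smul_eq_mul]
      module
    have h3 := nsq (Q v x0) (Q v x1) hs.le ht.le hst
    have h4 := nsq x0 x1 hs.le ht.le hst
    have h5 : Q v (s • x0 + t • x1) = s • Q v x0 + t • Q v x1 := by
      rw [map_add, map_smul, map_smul]
    simp only [hG]
    rw [h2, h5]
    simp only [smul_eq_mul] at h1
    have h6 : 0 ≤ c / 2 * σ ^ 2 := by positivity
    have h7 := mul_le_mul_of_nonneg_left h3 h6
    nlinarith
  have hint : ∀ y, Integrable (fun x => Real.exp (-G y x)) := by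
    intro y
    have h1 := HL.integrable_H h (dv v) (P v σ) 0 (y • dv v)
    refine (h1.mul_const (Real.exp (c / (2 * ‖v‖ ^ 2) * y ^ 2))).congr
      (Eventually.of_forall fun z => ?_)
    simp only [HL.f, HL.q_zero, one_mul, hG2]
    rw [← Real.exp_add, ← Real.exp_add]
    congr 1
    ring
  have hmeas : ∀ y, Measurable (G y) := by
    intro y
    have := h.cont
    have : Continuous (G y) := by
      simp only [hG]
      fun_prop
    exact this.measurable
  have hconv := LKE.convexOn_neg_log_integral_exp_neg G hGc hmeas hint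
  have heq : (fun y => -Real.log (∫ x, Real.exp (-G y x))) =
      fun y : ℝ => heat U (P v σ) (0 + y • dv v) - c / (2 * ‖v‖ ^ 2) * y ^ 2 := by
    funext y
    have h0 := HL.H_zero_pos h (dv v) (P v σ) (0 + y • dv v)
    have h1 : ∫ x, Real.exp (-G y x) =
        Real.exp (c / (2 * ‖v‖ ^ 2) * y ^ 2) * HL.H U (dv v) (P v σ) 0 (0 + y • dv v) := by
      rw [← HL.exp_neg_heat, ← integral_const_mul]
      refine integral_congr_ae (Eventually.of_forall fun z => ?_)
      simp only [hG2]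
      rw [← Real.exp_add, zero_add]
      congr 1
      ring
    rw [h1, Real.log_mul (Real.exp_pos _).ne' h0.ne', Real.log_exp, HL.heat_eq U (dv v)]
    ring
  rw [heq] at hconv
  have hd := RegLap.rl_conv1'
    (g := fun y : ℝ => heat U (P v σ) (0 + y • dv v) - c / (2 * ‖v‖ ^ 2) * y ^ 2)
    (g1 := fun y => HL.w1 U (dv v) (P v σ) (0 + y • dv v) - c / ‖v‖ ^ 2 * y)
    (g2 := fun y => HL.w2 U (dv v) (P v σ) (0 + y • dv v) - c / ‖v‖ ^ 2)
    (fun y => by
      have h1 := (HL.hasDerivAt_heat h (dv v) (P v σ) 0 y).sub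
        (((hasDerivAt_id y).pow 2).const_mul (c / (2 * ‖v‖ ^ 2)))
      refine HasDerivAt.congr_deriv (f := fun y : ℝ => heat U (P v σ) (0 + y • dv v) -
        c / (2 * ‖v‖ ^ 2) * y ^ 2) h1 ?_
      simp only [id, Nat.cast_ofNat]
      field_simp
      ring)
    (fun y => by
      have h1 := (HL.hasDerivAt_w1 h (dv v) (P v σ) 0 y).sub
        ((hasDerivAt_id y).const_mul (c / ‖v‖ ^ 2))
      refine HasDerivAt.congr_deriv (f := fun y : ℝ => HL.w1 U (dv v) (P v σ) (0 + y • dv v) -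
        c / ‖v‖ ^ 2 * y) h1 ?_
      ring)
    hconv t
  linarith

end Vale.Agent.P227.M.Mg305
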