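import Vale.Agent.P227.M.SC3.Lim
import Vale.Agent.P227.M.Stmts

/-! # P227/M/SC3 (helper305): `StmtHeat → StmtSC`. -/

open MeasureTheory Filter Topology Set
open scoped RealInnerProductSpace

namespace Vale.Agent.P227.M.Mg305

variable {n : ℕ}

theorem Z_zero (W : E n → ℝ) : LL.Z W 0 = ∫ x, Real.exp (-W x) := by
  simp [LL.Z]

theorem av_zero (W : E n → ℝ) (g : E n → ℝ) :
    LL.av W 0 g = (LL.Z W 0)⁻¹ * ∫ x, g x * Real.exp (-W x) := by
  unfold LL.av LL.I
  rw [smul_eq_mul]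
  congr 1
  refine integral_congr_ae (Eventually.of_forall fun x => ?_)
  simp only [inner_zero_right, zero_sub, smul_eq_mul]
  ring

theorem third_q (hH : StmtHeat) {U : E n → ℝ} {c C κ : ℝ} (h : Reg U c C) (hκ0 : 0 ≤ κ)
    (hκ1 : κ ≤ 1) (hs : SelfConc κ U) {v : E n} (hv : v ≠ 0) {σ : ℝ} (hσ : 0 < σ) :
    |LL.c3 (fun x => U x + 1 / (2 * σ ^ 2) * ‖Q v x‖ ^ 2) 0 v| ≤
      2 * κ * √(LL.c2 (fun x => U x + 1 / (2 * σ ^ 2) * ‖Q v x‖ ^ 2) 0 v) ^ 3 := by
  obtain ⟨A, hA⟩ := gr_of_reg h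
  have hδ : 0 ≤ 1 / (2 * σ ^ 2) := by positivity
  have hG := gr_q hA v hδ
  set Wd : E n → ℝ := fun x => U x + 1 / (2 * σ ^ 2) * ‖Q v x‖ ^ 2 with hWd
  set K : ℝ := g0 v * |(LinearMap.det (S v σ))⁻¹| with hK
  have hKpos : 0 < K := mul_pos (g0_pos hv) (abs_pos.2 (inv_ne_zero (S_det hv hσ.ne')))
  have hZ := LL.Z_pos hG 0
  set m : ℝ := LL.av Wd 0 (fun x => ⟪x, v⟫) with hm
  have hM : ∀ (m : ℝ) (j : ℕ),
      ∫ t : ℝ, (t - m) ^ j * Real.exp (-(heat U (P v σ) (0 + t • dv v))) =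
        K * ∫ x, (⟪x, v⟫ - m) ^ j * Real.exp (-(Wd x)) := fun m j => mom h hv hσ m j
  have hfrac : ∀ B : ℝ, (LL.Z Wd 0)⁻¹ * B = K * B / (K * LL.Z Wd 0) := fun B => by
    rw [mul_div_mul_left _ _ hKpos.ne', inv_mul_eq_div]
  have eZ : K * LL.Z Wd 0 = ∫ t : ℝ, Real.exp (-(heat U (P v σ) (0 + t • dv v))) := by
    have h1 := hM 0 0
    simp only [pow_zero, one_mul] at h1
    rw [h1, Z_zero]
  have em : m = (∫ t : ℝ, t * Real.exp (-(heat U (P v σ) (0 + t • dv v)))) / (K * LL.Z Wd 0) := by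
    have h1 := hM 0 1
    simp only [pow_one, sub_zero] at h1
    rw [h1, hm, av_zero, hfrac]
  have e2 : LL.c2 Wd 0 v =
      (∫ t : ℝ, (t - m) ^ 2 * Real.exp (-(heat U (P v σ) (0 + t • dv v)))) / (K * LL.Z Wd 0) := by
    rw [hM m 2]
    unfold LL.c2
    rw [av_zero, ← hm, hfrac]
  have e3 : LL.c3 Wd 0 v =
      (∫ t : ℝ, (t - m) ^ 3 * Real.exp (-(heat U (P v σ) (0 + t • dv v)))) / (K * LL.Z Wd 0) := by
    rw [hM m 3]
    unfold LL.c3
    rw [av_zero, ← hm, hfrac]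
  have hc2 := LL.c2_nonneg hG 0 v
  have hq := sq_pos hv
  have hc0 : 0 < c / ‖v‖ ^ 2 := by have := h.c_pos; positivity
  have key : ∀ k : ℝ, κ < k → |LL.c3 Wd 0 v| ≤ 2 * k * √(LL.c2 Wd 0 v) ^ 3 := by
    intro k hk
    have hk0 : 0 < k := lt_of_le_of_lt hκ0 hk
    have h1 := SC223.third_abs (W := fun t : ℝ => heat U (P v σ) (0 + t • dv v))
      (W1 := fun t => HL.w1 U (dv v) (P v σ) (0 + t • dv v))
      (W2 := fun t => HL.w2 U (dv v) (P v σ) (0 + t • dv v))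
      (W3 := fun t => HL.w3 U (dv v) (P v σ) (0 + t • dv v)) (c := k) (c0 := c / ‖v‖ ^ 2)
      (Z := K * LL.Z Wd 0) (m := m) (v := LL.c2 Wd 0 v) hk0 hc0
      (fun t => HL.hasDerivAt_heat h (dv v) (P v σ) 0 t)
      (fun t => HL.hasDerivAt_w1 h (dv v) (P v σ) 0 t)
      (fun t => HL.hasDerivAt_w2 h (dv v) (P v σ) 0 t)
      (fun t => w2_lower h hv σ t)
      (fun t => by
        have h2 := hH n U c C κ h hκ0 hκ1 hs (P v σ) (0 + t • dv v) (dv v)
        rw [HL.iteratedDeriv_two_heat h, HL.iteratedDeriv_three_heat h] at h2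
        refine h2.trans ?_
        have h3 : 0 ≤ (HL.w2 U (dv v) (P v σ) (0 + t • dv v)) ^ (3 / 2 : ℝ) :=
          Real.rpow_nonneg (hc0.le.trans (w2_lower h hv σ t)) _
        exact mul_le_mul_of_nonneg_right (by linarith) h3)
      eZ em e2
    rw [← e3, LK.rpow_three_half hc2] at h1
    refine h1.trans ?_
    have h4 : k / Real.sqrt (1 + k ^ 2) ≤ k := by
      refine div_le_self hk0.le ?_
      rw [Real.one_le_sqrt]
      nlinarith [sq_nonneg k]
    have h5 : 0 ≤ √(LL.c2 Wd 0 v) ^ 3 := by positivity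
    nlinarith
  refine le_of_forall_pos_le_add fun ε hε => ?_
  set X := √(LL.c2 Wd 0 v) ^ 3 with hX
  have hX0 : 0 ≤ X := by positivity
  have h1 := key (κ + ε / (2 * X + 1)) (by
    have : 0 < ε / (2 * X + 1) := by positivity
    linarith)
  refine h1.trans ?_
  have h2 : ε / (2 * X + 1) * (2 * X) ≤ ε := by
    rw [div_mul_eq_mul_div, div_le_iff₀ (by positivity)]
    nlinarith
  nlinarith

theorem third_zero (hH : StmtHeat) {U : E n → ℝ} {c C κ : ℝ} (h : Reg U c C) (hκ0 : 0 ≤ κ)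
    (hκ1 : κ ≤ 1) (hs : SelfConc κ U) {v : E n} (hv : v ≠ 0) :
    |LL.c3 U 0 v| ≤ 2 * κ * √(LL.c2 U 0 v) ^ 3 := by
  obtain ⟨A, hA⟩ := gr_of_reg h
  refine c3_le_of_q hA v 0 fun δ hδ => ?_
  have hσ : 0 < √(1 / (2 * δ)) := Real.sqrt_pos.2 (by positivity)
  have h1 := third_q hH h hκ0 hκ1 hs hv hσ
  have h2 : 1 / (2 * √(1 / (2 * δ)) ^ 2) = δ := by
    rw [Real.sq_sqrt (by positivity)]
    field_simp
  rw [h2] at h1
  exact h1

theorem c2_tilt (W : E n → ℝ) (y v : E n) : LL.c2 (fun z => W z - ⟪z, y⟫) 0 v = LL.c2 W y v := by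
  have h1 : ∀ g : E n → ℝ, LL.av (fun z => W z - ⟪z, y⟫) 0 g = LL.av W y g := by
    intro g
    unfold LL.av LL.I LL.Z
    congr 1
    · congr 1
      refine integral_congr_ae (Eventually.of_forall fun x => ?_)
      simp only [inner_zero_right]
      congr 1
      ring
    · refine integral_congr_ae (Eventually.of_forall fun x => ?_)
      simp only [inner_zero_right]
      congr 2
      ring
  unfold LL.c2
  simp only [h1]

theorem c3_tilt (W : E n → ℝ) (y v : E n) : LL.c3 (fun z => W z - ⟪z, y⟫) 0 v = LL.c3 W y v := by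
  have h1 : ∀ g : E n → ℝ, LL.av (fun z => W z - ⟪z, y⟫) 0 g = LL.av W y g := by
    intro g
    unfold LL.av LL.I LL.Z
    congr 1
    · congr 1
      refine integral_congr_ae (Eventually.of_forall fun x => ?_)
      simp only [inner_zero_right]
      congr 1
      ring
    · refine integral_congr_ae (Eventually.of_forall fun x => ?_)
      simp only [inner_zero_right]
      congr 2
      ring
  unfold LL.c3
  simp only [h1]

theorem iter2_logLap {W : E n → ℝ} {a A : ℝ} (hW : LL.Gr W a A) (y v : E n) :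
    iteratedDeriv 2 (fun t : ℝ => logLap W (y + t • v)) 0 = LL.c2 W y v := by
  have h0 : ∀ t, HasDerivAt (fun t : ℝ => logLap W (y + t • v))
      (LL.av W (y + t • v) (fun x => ⟪x, v⟫)) t := fun t => LL.hasDerivAt_Lam hW y v t
  rw [iteratedDeriv_succ', show deriv (fun t : ℝ => logLap W (y + t • v)) =
    fun t : ℝ => LL.av W (y + t • v) (fun x => ⟪x, v⟫) from funext fun t => (h0 t).deriv,
    iteratedDeriv_one, (LL.hasDerivAt_m1 hW y v 0).deriv]
  simp

theorem iter3_logLap {W : E n → ℝ} {a A : ℝ} (hW : LL.Gr W a A) (y v : E n) :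
    iteratedDeriv 3 (fun t : ℝ => logLap W (y + t • v)) 0 = LL.c3 W y v := by
  have h0 : ∀ t, HasDerivAt (fun t : ℝ => logLap W (y + t • v))
      (LL.av W (y + t • v) (fun x => ⟪x, v⟫)) t := fun t => LL.hasDerivAt_Lam hW y v t
  rw [iteratedDeriv_succ', show deriv (fun t : ℝ => logLap W (y + t • v)) =
    fun t : ℝ => LL.av W (y + t • v) (fun x => ⟪x, v⟫) from funext fun t => (h0 t).deriv,
    iteratedDeriv_succ', show deriv (fun t : ℝ => LL.av W (y + t • v) (fun x => ⟪x, v⟫)) =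
    fun t : ℝ => LL.c2 W (y + t • v) v from funext fun t => (LL.hasDerivAt_m1 hW y v t).deriv,
    iteratedDeriv_one, (LL.hasDerivAt_c2 hW y v 0).deriv]
  simp

/-- block SC from the flow -/
theorem stmtSC_of_heat (hH : StmtHeat) : StmtSC := by
  intro n W c C κ h hκ0 hκ1 hs y v
  obtain ⟨A, hA⟩ := gr_of_reg h
  rw [iter2_logLap hA, iter3_logLap hA, LK.rpow_three_half (LL.c2_nonneg hA y v)]
  rcases eq_or_ne v 0 with rfl | hv
  · have h3 : LL.c3 W y 0 = 0 := by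
      rw [← iter3_logLap hA]
      simp only [smul_zero, add_zero]
      rw [iteratedDeriv_const]
      simp
    rw [h3, abs_zero]
    positivity
  · have h1 := third_zero hH (reg_tilt h y) hκ0 hκ1 (sc_tilt h hs y) hv
    rw [c2_tilt, c3_tilt] at h1
    exact h1

end Vale.Agent.P227.M.Mg305
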