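import Vale.Agent.P227.M.SC3.Geo
import Vale.Agent.P227.M.SC2.HeatLine
import Vale.Agent.P227.M.SC.AsmN2

/-! # P227/M/SC3 (helper305): moments of the line density of `heat`. -/

open MeasureTheory Filter Topology Set
open scoped RealInnerProductSpace

namespace Vale.Agent.P227.M.Mg305

variable {n : ℕ}

/-- the noise covariance root -/
noncomputable def P (v : E n) (σ : ℝ) : E n →L[ℝ] E n := σ • Q v

theorem P_apply (v : E n) (σ : ℝ) (x : E n) : P v σ x = σ • Q v x := rfl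

/-- polynomial times Gaussian on the line -/
theorem line_int {b : ℝ} (hb : 0 < b) (m : ℝ) (j : ℕ) :
    Integrable (fun t : ℝ => (t - m) ^ j * Real.exp (-(b * t ^ 2))) := by
  have hW : LL.Gr (fun t : ℝ => b * t ^ 2) b 0 :=
    { cont := by fun_prop
      pos := hb
      low := fun t => by rw [Real.norm_eq_abs, sq_abs]; linarith }
  have hg : LL.Pg (fun t : ℝ => (t - m) ^ j) := (LL.Pg.id.sub (LL.Pg.const m)).pow j
  have h := LL.integrable hW hg 0
  refine h.congr (Eventually.of_forall fun t => ?_)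
  simp only [inner_zero_right, zero_sub, smul_eq_mul]
  ring

/-- the joint function -/
noncomputable def F (U : E n → ℝ) (v : E n) (σ m : ℝ) (j : ℕ) (p : E n × ℝ) : ℝ :=
  (p.2 - m) ^ j * Real.exp (-U (p.2 • dv v + P v σ p.1) - ‖p.1‖ ^ 2 / 2)

theorem cont_F {U : E n → ℝ} (hU : Continuous U) (v : E n) (σ m : ℝ) (j : ℕ) :
    Continuous (F U v σ m j) := by
  unfold F
  fun_prop

theorem F_int {U : E n → ℝ} {c C : ℝ} (h : Reg U c C) {v : E n} (hv : v ≠ 0) (σ m : ℝ) (j : ℕ) :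
    Integrable (F U v σ m j) (volume : Measure (E n × ℝ)) := by
  obtain ⟨A, hA⟩ := h.quad_lower
  have hq := sq_pos hv
  have hb : 0 < c / 4 / ‖v‖ ^ 2 := by have := h.c_pos; positivity
  have h1 := (HL.integrable_gw (n := n)).mul_prod ((line_int hb m j).norm)
  have h2 := h1.const_mul (Real.exp A)
  refine h2.mono' (cont_F h.cont v σ m j).aestronglyMeasurable (Eventually.of_forall fun p => ?_)
  unfold F
  rw [norm_mul, Real.norm_eq_abs (Real.exp _), abs_of_pos (Real.exp_pos _), norm_mul,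
    Real.norm_eq_abs (Real.exp (-(c / 4 / ‖v‖ ^ 2 * p.2 ^ 2))), abs_of_pos (Real.exp_pos _)]
  have h3 := hA (p.2 • dv v + P v σ p.1)
  rw [P_apply, norm_split hv] at h3
  have h4 : 0 ≤ σ ^ 2 * ‖Q v p.1‖ ^ 2 := by positivity
  have hc := h.c_pos
  have h5 : c / 4 / ‖v‖ ^ 2 * p.2 ^ 2 - A ≤ U (p.2 • dv v + P v σ p.1) := by
    rw [P_apply]
    have : c / 4 / ‖v‖ ^ 2 * p.2 ^ 2 = c / 4 * (p.2 ^ 2 / ‖v‖ ^ 2) := by ring
    rw [this]
    nlinarith
  have h6 : Real.exp (-U (p.2 • dv v + P v σ p.1) - ‖p.1‖ ^ 2 / 2) ≤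
      Real.exp A * (Real.exp (-‖p.1‖ ^ 2 / 2) * Real.exp (-(c / 4 / ‖v‖ ^ 2 * p.2 ^ 2))) := by
    rw [← Real.exp_add, ← Real.exp_add]
    refine Real.exp_le_exp.2 ?_
    linarith
  calc ‖(p.2 - m) ^ j‖ * Real.exp (-U (p.2 • dv v + P v σ p.1) - ‖p.1‖ ^ 2 / 2)
      ≤ ‖(p.2 - m) ^ j‖ * (Real.exp A * (Real.exp (-‖p.1‖ ^ 2 / 2) *
          Real.exp (-(c / 4 / ‖v‖ ^ 2 * p.2 ^ 2)))) := mul_le_mul_of_nonneg_left h6 (norm_nonneg _)
    _ = Real.exp A * (Real.exp (-‖p.1‖ ^ 2 / 2) *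
          (‖(p.2 - m) ^ j‖ * Real.exp (-(c / 4 / ‖v‖ ^ 2 * p.2 ^ 2)))) := by ring

/-- Gaussian constant -/
noncomputable def g0 (v : E n) : ℝ := ∫ s : ℝ, Real.exp (-(s ^ 2) / (2 * ‖v‖ ^ 2))

theorem g0_pos {v : E n} (hv : v ≠ 0) : 0 < g0 v := by
  have hq := sq_pos hv
  have hb : 0 < 1 / (2 * ‖v‖ ^ 2) := by positivity
  have h := line_int hb 0 0
  have h1 : Integrable fun s : ℝ => Real.exp (-(s ^ 2) / (2 * ‖v‖ ^ 2)) := by
    refine h.congr (Eventually.of_forall fun t => ?_)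
    simp only [pow_zero, one_mul]
    congr 1
    ring
  exact integral_exp_pos h1

theorem F_T (U : E n → ℝ) {v : E n} (hv : v ≠ 0) (σ m : ℝ) (j : ℕ) (x : E n) (s : ℝ) :
    F U v σ m j (T v (x, s)) = ((⟪x, v⟫ - m) ^ j * Real.exp (-U (S v σ x) - ‖Q v x‖ ^ 2 / 2)) *
      Real.exp (-((⟪x, v⟫ - s) ^ 2) / (2 * ‖v‖ ^ 2)) := by
  unfold F T
  simp only
  have h1 : P v σ (x - s • dv v) = σ • Q v x := by
    rw [P_apply, map_sub, map_smul, Q_dv hv, smul_zero, sub_zero]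
  have h2 : ‖x - s • dv v‖ ^ 2 = (⟪x, v⟫ - s) ^ 2 / ‖v‖ ^ 2 + ‖Q v x‖ ^ 2 := by
    have h3 := norm_split hv (⟪x, v⟫ - s) 1 x
    have h4 : (⟪x, v⟫ - s) • dv v + (1 : ℝ) • Q v x = x - s • dv v := by
      rw [Q_apply, one_smul, sub_smul]; abel
    rw [h4] at h3
    rw [h3]
    ring
  rw [h1, h2, ← S_apply, mul_assoc, ← Real.exp_add]
  congr 2
  have := (sq_pos hv).ne'
  field_simp
  ring

/-- the moments of the line density -/
theorem mom {U : E n → ℝ} {c C : ℝ} (h : Reg U c C) {v : E n} (hv : v ≠ 0) {σ : ℝ} (hσ : 0 < σ)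
    (m : ℝ) (j : ℕ) :
    ∫ t : ℝ, (t - m) ^ j * Real.exp (-(heat U (P v σ) (0 + t • dv v))) =
      (g0 v * |(LinearMap.det (S v σ))⁻¹|) *
        ∫ x, (⟪x, v⟫ - m) ^ j * Real.exp (-(U x + 1 / (2 * σ ^ 2) * ‖Q v x‖ ^ 2)) := by
  have hF := F_int h hv σ m j
  have hFT : Integrable (fun p : E n × ℝ => F U v σ m j (T v p)) :=
    ((mp_T hv).integrable_comp_emb (emb_T hv)).2 hF
  have e1 : ∫ t : ℝ, (t - m) ^ j * Real.exp (-(heat U (P v σ) (0 + t • dv v))) =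
      ∫ p, F U v σ m j p := by
    rw [Measure.volume_eq_prod, integral_prod_symm _ hF]
    refine integral_congr_ae (Eventually.of_forall fun t => ?_)
    simp only
    have h0 := HL.H_zero_pos h v (P v σ) (0 + t • dv v)
    rw [HL.heat_eq U v, neg_neg, Real.exp_log h0, ← HL.exp_neg_heat, zero_add,
      ← integral_const_mul]
    rfl
  have e2 : ∫ p, F U v σ m j p = ∫ p, F U v σ m j (T v p) :=
    ((mp_T hv).integral_comp (emb_T hv) _).symm
  have e3 : ∫ p, F U v σ m j (T v p) =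
      ∫ x, g0 v * ((⟪x, v⟫ - m) ^ j * Real.exp (-U (S v σ x) - ‖Q v x‖ ^ 2 / 2)) := by
    rw [Measure.volume_eq_prod, integral_prod _ hFT]
    refine integral_congr_ae (Eventually.of_forall fun x => ?_)
    simp only [F_T U hv]
    rw [integral_const_mul, mul_comm]
    congr 1
    have := integral_sub_left_eq_self (fun s : ℝ => Real.exp (-(s ^ 2) / (2 * ‖v‖ ^ 2))) volume
      (⟪x, v⟫ : ℝ)
    exact this
  have e4 : ∀ x, (⟪x, v⟫ - m) ^ j * Real.exp (-U (S v σ x) - ‖Q v x‖ ^ 2 / 2) =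
      (fun x => (⟪x, v⟫ - m) ^ j * Real.exp (-(U x + 1 / (2 * σ ^ 2) * ‖Q v x‖ ^ 2))) (S v σ x) := by
    intro x
    have h1 : ⟪S v σ x, v⟫ = ⟪x, v⟫ := by
      rw [S_apply, inner_add_left, real_inner_smul_left, real_inner_smul_left, inner_dv hv,
        inner_Q hv]
      ring
    have h2 : Q v (S v σ x) = σ • Q v x := by
      rw [S_apply, map_add, map_smul, map_smul, Q_dv hv, Q_Q hv, smul_zero, zero_add]
    simp only
    rw [h1, h2, norm_smul, mul_pow, Real.norm_eq_abs, sq_abs]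
    congr 2
    field_simp
    ring
  have hc : Continuous fun x : E n =>
      (⟪x, v⟫ - m) ^ j * Real.exp (-(U x + 1 / (2 * σ ^ 2) * ‖Q v x‖ ^ 2)) := by
    have := h.cont
    fun_prop
  rw [e1, e2, e3, integral_const_mul, integral_congr_ae (Eventually.of_forall e4),
    int_S hv hσ.ne' hc]
  ring

end Vale.Agent.P227.M.Mg305
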